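import Vale.Agent.P141.H822.LoLP
import Vale.Agent.P141.H338.Lab4

/-!
# The quadratic bound of the pair sum `LP` at small levels, in the letters of the labels

The multiplier is given by matrices over the label type `κ`, which is read through an injection
`e : κ → ℤ` into the `L` last binary digits.
-/

set_option linter.unusedSectionVars false

namespace Vale.Agent.P141.H822

open Finset Matrix Vale.Agent.P075 Vale.Agent.P141.PL Vale.Agent.P141.PL.H804
open Vale.Agent.P141.H958 Vale.Agent.P141.H103 Vale.Agent.P141.H609 Vale.Agent.P141.H433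
open Vale.Agent.P141.H338
open Vale.Agent.P141.PL.H588 (Xg hd Pl)

noncomputable section

section emb

variable {κ : Type*} [Fintype κ] [DecidableEq κ] {L : ℕ} {e : κ → ℤ}

/-- the isometry of the labels -/
def eE (L : ℕ) (e : κ → ℤ) : Matrix (Ix L) κ ℝ := fun i a => if e a = (val L i : ℤ) then 1 else 0

/-- a label matrix on the digits -/
def emb (L : ℕ) (e : κ → ℤ) (M : Matrix κ κ ℝ) : Matrix (Ix L) (Ix L) ℝ :=
  eE L e * M * (eE L e)ᵀ

theorem eE_isom (he : Function.Injective e) (hm : ∀ i, e i ∈ lbs L) :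
    (eE L e)ᵀ * eE L e = 1 := by
  ext a b
  rw [Matrix.mul_apply]
  have h1 : ∑ i : Ix L, (eE L e)ᵀ a i * eE L e i b =
      ∑ x ∈ iv L 0, (if e a = x then (1 : ℝ) else 0) * (if e b = x then 1 else 0) := by
    rw [H588.sum_iv]
    refine sum_congr rfl fun i _ => ?_
    rw [mul_zero, zero_add]
    rfl
  rw [h1]
  have h2 : iv L 0 = lbs L := by
    unfold iv lbs
    rw [mul_zero, zero_add]
  rw [h2]
  simp only [ite_mul, one_mul, zero_mul]
  rw [Finset.sum_ite_eq, if_pos (hm a)]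
  rw [Matrix.one_apply]
  by_cases hab : a = b
  · rw [hab, if_pos rfl, if_pos rfl]
  · rw [if_neg hab, if_neg fun h => hab (he h.symm)]

theorem emb_mul (he : Function.Injective e) (hm : ∀ i, e i ∈ lbs L) (M M' : Matrix κ κ ℝ) :
    emb L e M * emb L e M' = emb L e (M * M') := by
  unfold emb
  rw [show eE L e * M * (eE L e)ᵀ * (eE L e * M' * (eE L e)ᵀ) =
    eE L e * M * ((eE L e)ᵀ * eE L e) * M' * (eE L e)ᵀ by simp only [Matrix.mul_assoc],
    eE_isom he hm, Matrix.mul_one]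
  simp only [Matrix.mul_assoc]

theorem emb_transpose (M : Matrix κ κ ℝ) : (emb L e M)ᵀ = emb L e Mᵀ := by
  unfold emb
  rw [transpose_mul, transpose_mul, transpose_transpose, Matrix.mul_assoc]

theorem emb_sub (M M' : Matrix κ κ ℝ) : emb L e M - emb L e M' = emb L e (M - M') := by
  unfold emb
  rw [← Matrix.sub_mul, ← Matrix.mul_sub]

theorem emb_add (M M' : Matrix κ κ ℝ) : emb L e M + emb L e M' = emb L e (M + M') := by
  unfold emb
  rw [← Matrix.add_mul, ← Matrix.mul_add]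

theorem emb_smul (c : ℝ) (M : Matrix κ κ ℝ) : c • emb L e M = emb L e (c • M) := by
  unfold emb
  rw [Matrix.mul_smul, Matrix.smul_mul]

theorem trace_emb (he : Function.Injective e) (hm : ∀ i, e i ∈ lbs L) (M : Matrix κ κ ℝ) :
    (emb L e M).trace = M.trace := by
  unfold emb
  rw [Matrix.mul_assoc, trace_mul_comm, Matrix.mul_assoc, eE_isom he hm, Matrix.mul_one]

/-- entries -/
theorem emb_apply (M : Matrix κ κ ℝ) (i j : Ix L) :
    emb L e M i j = ∑ a, ∑ b, if e a = (val L i : ℤ) ∧ e b = (val L j : ℤ) then M a b else 0 := by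
  unfold emb
  rw [Matrix.mul_apply]
  simp only [Matrix.mul_apply, Finset.sum_mul]
  rw [Finset.sum_comm]
  refine sum_congr rfl fun a _ => sum_congr rfl fun b _ => ?_
  change (if e a = (val L i : ℤ) then (1 : ℝ) else 0) * M a b *
    (if e b = (val L j : ℤ) then 1 else 0) = _
  by_cases h1 : e a = (val L i : ℤ) <;> by_cases h2 : e b = (val L j : ℤ) <;> simp [h1, h2]

theorem proj_psd (he : Function.Injective e) (hm : ∀ i, e i ∈ lbs L) :
    (1 - eE L e * (eE L e)ᵀ).PosSemidef := by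
  have hs : (1 - eE L e * (eE L e)ᵀ)ᵀ = 1 - eE L e * (eE L e)ᵀ := by
    rw [transpose_sub, transpose_one, transpose_mul, transpose_transpose]
  have h := psd_sq hs
  have e1 : (1 - eE L e * (eE L e)ᵀ) * (1 - eE L e * (eE L e)ᵀ) = 1 - eE L e * (eE L e)ᵀ := by
    have e2 : eE L e * (eE L e)ᵀ * (eE L e * (eE L e)ᵀ) = eE L e * (eE L e)ᵀ := by
      rw [show eE L e * (eE L e)ᵀ * (eE L e * (eE L e)ᵀ) =
        eE L e * ((eE L e)ᵀ * eE L e) * (eE L e)ᵀ by simp only [Matrix.mul_assoc],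
        eE_isom he hm, Matrix.mul_one]
    rw [Matrix.mul_sub, Matrix.sub_mul, Matrix.sub_mul, e2]
    simp
  rwa [e1] at h

theorem emb_psd {M : Matrix κ κ ℝ} (hM : M.PosSemidef) : (emb L e M).PosSemidef :=
  psd_conj hM (eE L e)

theorem emb_ct (he : Function.Injective e) (hm : ∀ i, e i ∈ lbs L) {M : Matrix κ κ ℝ}
    (h : Ct M) : Ct (emb L e M) := by
  have key : ∀ {X : Matrix κ κ ℝ}, (1 - X).PosSemidef → (1 - emb L e X).PosSemidef := by
    intro X hX
    have e1 : 1 - emb L e X = (1 - eE L e * (eE L e)ᵀ) + emb L e (1 - X) := by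
      unfold emb
      rw [Matrix.mul_sub, Matrix.sub_mul, Matrix.mul_one]
      abel
    rw [e1]
    exact (proj_psd he hm).add (emb_psd hX)
  constructor
  · rw [emb_transpose, emb_mul he hm]
    exact key h.1
  · rw [emb_transpose, emb_mul he hm]
    exact key h.2

/-- the size of the change of a label multiplier -/
def vk (V : ℕ → ℤ → ℤ → Matrix κ κ ℝ) (k : ℕ) (x j : ℤ) : ℝ :=
  (((1 / 2 : ℝ) • (V k x (2 * j) - V k x (2 * j + 1))) *
    ((1 / 2 : ℝ) • (V k x (2 * j) - V k x (2 * j + 1)))ᵀ).trace +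
  √(((V (k + 1) x j - (1 / 2 : ℝ) • (V k x (2 * j) + V k x (2 * j + 1))) *
    (V (k + 1) x j - (1 / 2 : ℝ) • (V k x (2 * j) + V k x (2 * j + 1)))ᵀ).trace)

theorem vd_emb (he : Function.Injective e) (hm : ∀ i, e i ∈ lbs L)
    (V : ℕ → ℤ → ℤ → Matrix κ κ ℝ) (k : ℕ) (x j : ℤ) :
    vd (fun k x n => emb L e (V k x n)) k x j = vk V k x j := by
  unfold vd vk
  have h1 : vV (fun k x n => emb L e (V k x n)) k x j =
      emb L e ((1 / 2 : ℝ) • (V k x (2 * j) - V k x (2 * j + 1))) := by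
    unfold vV
    rw [emb_sub, emb_smul]
  have h2 : vD (fun k x n => emb L e (V k x n)) k x j =
      emb L e (V (k + 1) x j - (1 / 2 : ℝ) • (V k x (2 * j) + V k x (2 * j + 1))) := by
    unfold vD
    rw [emb_add, emb_smul, emb_sub]
  rw [h1, h2, emb_transpose, emb_transpose, emb_mul he hm, emb_mul he hm, trace_emb he hm,
    trace_emb he hm]

/-- the kernel of the block matrix -/
def kV (L : ℕ) (e : κ → ℤ) (V : ℤ → Matrix κ κ ℝ) (p q : ℤ) : ℝ :=
  if ix L p = ix L q then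
    ∑ a, ∑ b, if e a = lb L p ∧ e b = lb L q then V (ix L p) a b else 0 else 0

/-- **The block matrix of a label multiplier** at the node `m`, fine scale `k'`. -/
def SV (L : ℕ) (e : κ → ℤ) (V : ℕ → ℤ → ℤ → Matrix κ κ ℝ) (k' : ℕ) (m : Pt) :
    Matrix (Ix k') (Ix k') ℝ :=
  bl k' (kV L e fun x => V (k' - L) x m.2.1) m.2.2 m.2.2

theorem bl_kV (V : ℤ → Matrix κ κ ℝ) (k : ℕ) (m : ℤ) :
    bl (L + k) (kV L e V) m m = DL L (fun x => emb L e (V x)) k m := by
  induction k generalizing m with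
  | zero =>
    ext i j
    have hv : ∀ i : Ix L, ((val L i : ℕ) : ℤ) ∈ lbs L := fun i => by
      unfold lbs
      rw [mem_Ico]
      exact ⟨Int.natCast_nonneg _, by exact_mod_cast val_lt L i⟩
    change kV L e V (2 ^ L * m + (val L i : ℤ)) (2 ^ L * m + (val L j : ℤ)) = emb L e (V m) i j
    unfold kV
    rw [ix_mk (hv i), ix_mk (hv j), lb_mk (hv i), lb_mk (hv j), if_pos rfl, emb_apply]
  | succ k ih =>
    have hix : ∀ (c : ℤ) (i : Ix (L + k)), ix (L + k) (2 ^ (L + k) * c + (val (L + k) i : ℤ)) = c := by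
      intro c i
      exact ix_mk (L := L + k) (l := (val (L + k) i : ℤ)) (by
        unfold lbs
        rw [mem_Ico]
        exact ⟨Int.natCast_nonneg _, by exact_mod_cast val_lt (L + k) i⟩) c
    have hne : ∀ (i j : Ix (L + k)), ix L (2 ^ (L + k) * (2 * m) + (val (L + k) i : ℤ)) ≠
        ix L (2 ^ (L + k) * (2 * m + 1) + (val (L + k) j : ℤ)) := by
      intro i j h
      have h1 := hix (2 * m) i
      have h2 := hix (2 * m + 1) j
      rw [← ix_ix, h, ix_ix, h2] at h1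
      omega
    have e0 : ∀ i : Ix (L + k), (2 : ℤ) ^ (L + (k + 1)) * m + ((val (L + k) i : ℕ) : ℤ) =
        2 ^ (L + k) * (2 * m) + (val (L + k) i : ℤ) := fun i => by ring
    have e1 : ∀ i : Ix (L + k), (2 : ℤ) ^ (L + (k + 1)) * m + ((2 ^ (L + k) + val (L + k) i : ℕ) : ℤ) =
        2 ^ (L + k) * (2 * m + 1) + (val (L + k) i : ℤ) := fun i => by push_cast; ring
    rw [DL, ← ih, ← ih]
    ext i j
    rcases i with i | i <;> rcases j with j | j
    · change kV L e V (2 ^ (L + (k + 1)) * m + ((val (L + k) i : ℕ) : ℤ))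
        (2 ^ (L + (k + 1)) * m + ((val (L + k) j : ℕ) : ℤ)) = _
      rw [e0, e0]
      rfl
    · change kV L e V (2 ^ (L + (k + 1)) * m + ((val (L + k) i : ℕ) : ℤ))
        (2 ^ (L + (k + 1)) * m + ((2 ^ (L + k) + val (L + k) j : ℕ) : ℤ)) = 0
      rw [e0, e1]
      unfold kV
      rw [if_neg (hne i j)]
    · change kV L e V (2 ^ (L + (k + 1)) * m + ((2 ^ (L + k) + val (L + k) i : ℕ) : ℤ))
        (2 ^ (L + (k + 1)) * m + ((val (L + k) j : ℕ) : ℤ)) = 0
      rw [e0, e1]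
      unfold kV
      rw [if_neg fun h => hne j i h.symm]
    · change kV L e V (2 ^ (L + (k + 1)) * m + ((2 ^ (L + k) + val (L + k) i : ℕ) : ℤ))
        (2 ^ (L + (k + 1)) * m + ((2 ^ (L + k) + val (L + k) j : ℕ) : ℤ)) = _
      rw [e1, e1]
      rfl

theorem SV_eq (V : ℕ → ℤ → ℤ → Matrix κ κ ℝ) (k : ℕ) (m : Pt) :
    SV L e V (L + k) m = DU (fun k x n => emb L e (V k x n)) k k m.2.1 m.2.2 := by
  unfold SV DU
  rw [bl_kV, Nat.add_sub_cancel_left]

end emb

/-! ### the labelled form -/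

theorem trace_encR (L k : ℕ) (A : ℤ → ℤ → ℤ → ℝ) (n y : ℤ) :
    (Xg (L + k) L (encR L A) n y).trace =
      (2 ^ k : ℝ)⁻¹ * ∑ x ∈ iv k n, ∑ l ∈ lbs L, A l x y ^ 2 := by
  have h := H588.trace_Xg (L + k) L (encR L A) n y
  have e1 : ∑ q ∈ iv L y, ∑ p ∈ iv (L + k) n, encR L A p q ^ 2 =
      2 ^ L * (2 ^ L * ∑ x ∈ iv k n, ∑ l ∈ lbs L, A l x y ^ 2) := by
    have h0 : iv L y = iv (0 + L) y := by rw [Nat.zero_add]
    have h4 : iv 0 y = {y} := by
      ext x
      simp only [iv, mem_Ico, mem_singleton, pow_zero, one_mul]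
      omega
    have hp : ∀ q : ℤ, ∑ p ∈ iv (L + k) n, encR L A p q ^ 2 =
        2 ^ L * ∑ x ∈ iv k n, 2 ^ L * A (lb L q) x (ix L q) ^ 2 := by
      intro q
      rw [Nat.add_comm L k]
      have h5 := sum_iv_add L k n fun _ x => (√(2 ^ L) * A (lb L q) x (ix L q)) ^ 2
      simp only [encR_apply]
      rw [h5, mul_sum]
      refine sum_congr rfl fun x _ => ?_
      rw [sum_lbs_const, mul_pow, Real.sq_sqrt (by positivity)]
    simp only [hp]
    rw [h0]
    have h6 := sum_iv_add L 0 y fun l y' => 2 ^ L * ∑ x ∈ iv k n, 2 ^ L * A l x y' ^ 2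
    rw [h6, h4, sum_singleton, ← mul_sum]
    congr 1
    rw [sum_comm, mul_sum]
    refine sum_congr rfl fun x _ => ?_
    rw [mul_sum]
  rw [e1] at h
  have h2 : (2 : ℝ) ^ L ≠ 0 := by positivity
  have h3 : (2 : ℝ) ^ k ≠ 0 := by positivity
  rw [pow_add] at h
  field_simp at h ⊢
  linarith

section lab

variable {κ : Type*} [Fintype κ] [DecidableEq κ] {L N : ℕ} {R : Pt} {c : ℕ → ℤ}
  {B C : ℕ → ℤ → ℤ → ℤ → ℝ} {cB cC : ℝ} {s : ℕ → Finset Pt} {el : κ → ℤ}
  {V : ℕ → ℤ → ℤ → Matrix κ κ ℝ} {QB QC : ℕ → ℤ → ℤ → Prop}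

/-- **(LP2) in the letters of the labels.** -/
theorem lo_LP_lab (he : Function.Injective el) (hm : ∀ i, el i ∈ lbs L) (hc : Pl c) (hB : 0 < cB)
    (hC : 0 < cC) (hs : ∀ k ∈ Icc 1 N, s k ⊆ bx3 N R k (c k))
    (capB : ∀ k ∈ Icc 1 N, ∀ m ∈ s k, CapR L k m.2.1 m.2.2 cB (B k))
    (capC : ∀ k ∈ Icc 1 N, ∀ m ∈ s k, CapR L k m.1 m.2.2 cC (C k))
    (hV : ∀ k x n, Ct (V k x n)) (B0 : B 0 = 0) (C0 : C 0 = 0)
    (pB : ∀ l ∈ lbs L, H736.Path N R.2.1 R.2.2 QB (fun k => B k l))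
    (pC : ∀ l ∈ lbs L, H736.Path N R.1 R.2.2 QC (fun k => C k l)) {DB DC : ℝ}
    (oB : ∑ l ∈ lbs L, pwr N R.2.1 R.2.2 QB (fun k => B k l) ≤ DB)
    (oC : ∑ l ∈ lbs L, pwr N R.1 R.2.2 QC (fun k => C k l) ≤ DC) {β G : ℝ}
    (gB : ∀ k < N, ∀ n ∈ iv (N - k) R.2.1, ∀ y ∈ iv N R.2.2,
      ∑ x ∈ iv k n, ∑ l ∈ lbs L, B (k + 1) l x y ^ 2 ≤ 2 ^ k * β ^ 2)
    (gC : ∀ k < N, ∀ n ∈ iv (N - k) R.1, ∀ y ∈ iv N R.2.2,
      ∑ x ∈ iv k n, ∑ l ∈ lbs L, C (k + 1) l x y ^ 2 ≤ 2 ^ k * β ^ 2)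
    (hG : ∀ x ∈ iv N R.2.2, ∑ k ∈ range N, 2 ^ (k + 1) * ∑ j ∈ iv (N - (k + 1)) R.2.1, vk V k x j
      ≤ 2 ^ N * G) (b e : ℕ) :
    LP (N + L) (shs L s) cB cC (shF L fun k => encR L (B k)) (shF L fun k => encR L (C k))
        (SV L el V) b e ≤
      (16 * 10 ^ 4 * (4 ^ L * (DB + DC) + 4 ^ (N + L) * β ^ 2 * G)) *
        max (cB / 2 ^ (b - 1)) (cC / 2 ^ (e - 1)) ^ 2 := by
  have hh : ∀ {A : ℕ → ℤ → ℤ → ℤ → ℝ} {T : ℤ}, (∀ k < N, ∀ n ∈ iv (N - k) T, ∀ y ∈ iv N R.2.2,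
      ∑ x ∈ iv k n, ∑ l ∈ lbs L, A (k + 1) l x y ^ 2 ≤ 2 ^ k * β ^ 2) →
      ∀ k < N, ∀ n ∈ iv (N - k) T, ∀ y ∈ iv N R.2.2,
        (Xg (L + k) L ((shF L fun k => encR L (A k)) (L + (k + 1))) n y).trace ≤ β ^ 2 := by
    intro A T h k hk n hn y hy
    have e1 : (shF L fun k => encR L (A k)) (L + (k + 1)) = encR L (A (k + 1)) := by
      rw [Nat.add_comm L (k + 1)]
      exact shF_add L (fun k => encR L (A k)) (k + 1)
    rw [e1, trace_encR]
    have h1 := h k hk n hn y hy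
    have h2 : (0 : ℝ) < 2 ^ k := by positivity
    rw [inv_mul_le_iff₀ h2]
    exact h1
  have hs' := shs_sub (L := L) (R := R) hs
  have cB' := cap_shF (N := N) (L := L) (G := fun k => encR L (B k)) (x := cB) (s := s)
    (p := fun m => m.2.1) (q := fun m => m.2.2) fun k hk m hm => cap_encR (capB k hk m hm)
  have cC' := cap_shF (N := N) (L := L) (G := fun k => encR L (C k)) (x := cC) (s := s)
    (p := fun m => m.1) (q := fun m => m.2.2) fun k hk m hm => cap_encR (capC k hk m hm)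
  have lB := L2E_encR (L := L) B0 pB oB
  have lC := L2E_encR (L := L) C0 pC oC
  rw [Nat.add_comm N L] at hs' cB' cC' lB lC
  rw [Nat.add_comm N L]
  have h := lo_LP (L := L) (N := N) (R := R) (S := SV L el V)
    (U := fun k x n => emb L el (V k x n)) (shc_pl (L := L) hc) hB hC
    (fun k hk => by
      unfold shs
      rw [if_neg (by omega)])
    hs' cB' cC' (fun k x n => emb_ct he hm (hV k x n)) (fun k _ m _ => SV_eq V (k + 1) m)
    lB lC (hh gB) (hh gC)
    (fun x hx => by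
      simp only [vd_emb he hm]
      exact hG x hx) b e
  refine h.trans (le_of_eq ?_)
  ring

end lab

end

end Vale.Agent.P141.H822
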