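import Vale.Agent.P141.H331.SkelTZU
import Vale.Agent.P141.H511.LoW
import Vale.Agent.P141.H433.LoW
import Vale.Agent.P141.H676.MassG

/-!
# P141, line (A), the crude pair of the gap part: one tile, numbers, maker

* `loPW` : `H511.LoW.LoPW` from `H433.lo_pathW`;
* `RowsZ` : the two row hypotheses of `H511.LoW.lo_LP_light_rows` in the letters of the skeleton;
* `crude_tile` : `ZCap`, `ZFam`, `RowsZ`, the mass of the labels ⊢ the crude pair of one tile;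
* `lam1_div`, `lsz_le` : the two ratios are at most `(t / r) ^ (-10)`;
* `leafCr_of` : the leaf from `MkT ZCap`, `MkT ZFam` and the maker of the rows.
-/

set_option linter.unusedSectionVars false

namespace Vale.Agent.P141.H822.ZCr

open Finset Matrix Vale.Agent.P075 Vale.Agent.P141.PL Vale.Agent.P141.PL.H588
open Vale.Agent.P141.PL.H804 Vale.Agent.P141.H958 Vale.Agent.P141.H338 Vale.Agent.P141.H609
open Vale.Agent.P141.H822 (SV VL)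
open Vale.Agent.P141.H511 (BL CL YW)
open Vale.Agent.P141.H511.LoW (LoPW LoFam loFam_of lo_LP_light_rows)
open Vale.Agent.P141.H677 (KT rt sN GT cP rv tr_T sN_sub cP_pl)
open Vale.Agent.P141.H677.Sk (lam1)
open Vale.Agent.P141.PL.H315 (Tri)
open Vale.Agent.P141.H48 (US ES BSl)
open Vale.Agent.P141.H401 (PartY PartQ cA cb mC)
open Vale.Agent.P141.H331 (ZP ZCap ZFam ZCrude cCz lsz MkT MkTH HUV LeafCr monoCap monoFam)

noncomputable section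

open scoped Classical

/-- **The crude lemma, one `x₀`.** -/
theorem loPW : LoPW := fun _L _N _R _S _T _c _U _Q _Q' _F _H _D _D' hc hU eF eH =>
  H433.lo_pathW hc hU eF eH

/-- **The crude lemma, summed over `x₀`.** -/
theorem loFam : LoFam := loFam_of loPW

variable {ι : Type} [Fintype ι] [DecidableEq ι]

/-- rows of the families at the label points, the number is `ρ` -/
def RowsZ (o : ℤ) (K : ℕ) (x : Pt) (L : ℕ) (e : ι → ℤ) (t0 : ℤ)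
    (b C : ℤ → ℕ → ℤ → ℤ → ι → ℝ) (ρ : ℝ) : Prop :=
  (∀ k < K, ∀ y ∈ iv K (cx K x).1, ∀ n' ∈ iv (K - (k + 1)) (cx K x).2.1, ∑ i ∈ iv K t0,
    (if cP o i (k + 1) - ix (k + 1) y - n' ∈ iv (K - (k + 1)) (cx K x).2.2 then
      ∑ z ∈ iv (k + 1) (cP o i (k + 1) - ix (k + 1) y - n'), ∑ l ∈ lbs L,
        CL e (C i (k + 1)) l z y ^ 2 else 0) ≤ 2 ^ (k + 1) * ρ) ∧
  ∀ k < K, ∀ y ∈ iv K (cx K x).1, ∀ n' ∈ iv (K - (k + 1)) (cx K x).2.1, ∑ i ∈ iv K t0,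
    ∑ z ∈ iv (k + 1) n', ∑ l ∈ lbs L, BL e (b i (k + 1)) l z y ^ 2 ≤ 2 ^ (k + 1) * ρ

theorem cCz_pos {p : H401.Num} {s : ℝ} (ht : 0 < p.t) (hs : 0 < s) : 0 < cCz p s := by
  have h : 0 < p.Lm := Real.rpow_pos_of_pos ht _
  unfold H331.cCz
  have h1 : 0 < √(p.Lm * s) := Real.sqrt_pos.2 (mul_pos h hs)
  have h2 : 0 < √(√(p.Lm * s)) := Real.sqrt_pos.2 h1
  positivity

/-- **The crude pair of one tile.** -/
theorem crude_tile {p : H401.Num} {o : ℤ} {K : ℕ} {x : Pt} {s r : ℝ} {U : Tri}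
    {u : ℤ → ℤ → ι → ℝ} {L : ℕ} {e : ι → ℤ} {t0 : ℤ} {A : ℤ → ℕ → ℤ → ℤ → ℝ}
    {b C : ℤ → ℕ → ℤ → ℤ → ι → ℝ} {ρ : ℝ} (ht : 0 < p.t) (hs : 0 < s) (hr : 1 ≤ r)
    (ho : o = 1 ∨ o = -1) (he : Function.Injective e) (hm : ∀ i, e i ∈ lbs L)
    (hg : ∑ x1 ∈ iv K (cx K x).1, (GT u x1 K (cx K x).2.1).trace ≤ 2 ^ K * s)
    (hcap : ZCap ι p o K x s r U u L e t0 A b C) (hfam : ZFam ι p o K x s r U u L e t0 A b C)
    (hρ : 0 ≤ ρ) (hrow : RowsZ o K x L e t0 b C ρ) (j j' : ℕ) :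
    ∑ i ∈ iv K t0, LP (K + L) (shs L (sN (p.al U K) o K (cx K x) i))
      (p.th s r) (cCz p s) (shF L fun k => encR L (BL e (b i k)))
      (shF L fun k => encR L (CL e (C i k))) (SV L e (VL (p.lam s r) (KT (p.lam s r) u))) j j' ≤
    (16 * 10 ^ 4 * (4 ^ L * (p.CD * (lsz p * s * 8 ^ K) + p.CD * (lsz p * s * 8 ^ K)) +
      10 * ρ * (4 ^ (K + L) * (2 * (p.lam s r)⁻¹ * s)))) *
      max (p.th s r / 2 ^ (j - 1)) (cCz p s / 2 ^ (j' - 1)) ^ 2 := by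
  obtain ⟨-, cB, cC⟩ := hcap
  obtain ⟨-, ⟨QB, b0, b1, b2⟩, QC, c0, c1, c2⟩ := hfam
  exact lo_LP_light_rows loFam (R := rv (cx K x)) (X := iv K t0) (c := cP o)
    (B := fun i k => BL e (b i k)) (C := fun i k => CL e (C i k))
    (s := fun i => sN (p.al U K) o K (cx K x) i) (QB := QB) (QC := QC)
    (G := GT u) (K := KT (p.lam s r) u) he hm (fun i _ => cP_pl ho i)
    (H401.Num.th_pos ht hs hr) (cCz_pos ht hs) (fun i _ k _ => sN_sub _ o K (cx K x) i k)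
    cB cC (fun x1 => tr_T (H401.Num.lam_pos ht hs hr) K u x1) b0 c0 b1 c1 b2 c2 hρ
    hrow.1 hrow.2 hg j j'

/-! ### Numbers -/

/-- the loss is at most `(t / r) ^ (-10)` -/
theorem lsz_le {p : H401.Num} {r : ℝ} (ht : 0 < p.t) (ht1 : p.t ≤ 1) (hr : 1 ≤ r)
    (hcd : 8 * (p.c + p.d) ≤ 10) : lsz p ≤ (p.t / r) ^ (-(10 : ℝ)) := by
  have hr0 : 0 < r := by linarith
  unfold H331.lsz
  have h1 : p.t ^ (-(8 * (p.c + p.d))) ≤ p.t ^ (-(10 : ℝ)) :=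
    Real.rpow_le_rpow_of_exponent_ge ht ht1 (by linarith)
  have h2 : p.t ^ (-(10 : ℝ)) ≤ (p.t / r) ^ (-(10 : ℝ)) := by
    rw [Real.rpow_neg ht.le, Real.rpow_neg (div_pos ht hr0).le]
    refine inv_anti₀ (Real.rpow_pos_of_pos (div_pos ht hr0) _) ?_
    refine Real.rpow_le_rpow (div_pos ht hr0).le ?_ (by norm_num)
    rw [div_le_iff₀ hr0]
    nlinarith
  exact h1.trans h2

/-- the level of the fibres against the gap -/
theorem lam1_div {p : H401.Num} {s r : ℝ} (ht : 0 < p.t) (ht1 : p.t ≤ 1) (hs : 0 < s)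
    (hr : 1 ≤ r) (he0 : 0 ≤ p.e0) :
    lam1 p s r * (p.lam s r)⁻¹ ≤ (p.t / r) ^ (-(10 : ℝ)) := by
  have hr0 : 0 < r := by linarith
  have hl := H401.Num.lam_pos (p := p) ht hs hr
  rw [mul_inv_le_iff₀ hl]
  unfold H677.Sk.lam1 H401.Num.lam
  have h1 : (p.t / r) ^ (-(10 : ℝ)) = p.t ^ (-(10 : ℝ)) * r ^ (10 : ℝ) := by
    rw [Real.div_rpow ht.le hr0.le, Real.rpow_neg hr0.le (10 : ℝ), div_inv_eq_mul]
  rw [h1]
  have h2 : p.t ^ (-(8 : ℝ)) ≤ p.t ^ (-(10 : ℝ)) * p.t ^ (2 - p.e0) := by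
    rw [← Real.rpow_add ht]
    exact Real.rpow_le_rpow_of_exponent_ge ht ht1 (by linarith)
  have h3 : r ^ (8 : ℝ) ≤ r ^ (10 : ℝ) * r ^ p.e0 := by
    rw [← Real.rpow_add hr0]
    exact Real.rpow_le_rpow_of_exponent_le hr (by linarith)
  have h4 : 0 ≤ √s := Real.sqrt_nonneg s
  have h5 : 0 ≤ r ^ (8 : ℝ) := (Real.rpow_pos_of_pos hr0 _).le
  have h6 : 0 ≤ p.t ^ (-(10 : ℝ)) * p.t ^ (2 - p.e0) :=
    mul_nonneg (Real.rpow_pos_of_pos ht _).le (Real.rpow_pos_of_pos ht _).le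
  calc p.t ^ (-(8 : ℝ)) * √s * r ^ (8 : ℝ) = (p.t ^ (-(8 : ℝ)) * r ^ (8 : ℝ)) * √s := by ring
    _ ≤ ((p.t ^ (-(10 : ℝ)) * p.t ^ (2 - p.e0)) * (r ^ (10 : ℝ) * r ^ p.e0)) * √s :=
      mul_le_mul_of_nonneg_right (mul_le_mul h2 h3 h5 h6) h4
    _ = p.t ^ (-(10 : ℝ)) * r ^ (10 : ℝ) * (p.t ^ (2 - p.e0) * √s * r ^ p.e0) := by ring

/-- **The field from the tile**, `ρ = 2 ^ K * (2 e lam1)`. -/
theorem zcrude_of {p : H401.Num} {CD : ℝ} {o : ℤ} {K : ℕ} {x : Pt} {s r : ℝ} {U : Tri}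
    {u : ℤ → ℤ → ι → ℝ} {L : ℕ} {e : ι → ℤ} {t0 : ℤ} {A : ℤ → ℕ → ℤ → ℤ → ℝ}
    {b C : ℤ → ℕ → ℤ → ℤ → ι → ℝ} (ht : 0 < p.t) (ht1 : p.t ≤ 1) (hs : 0 < s) (hr : 1 ≤ r)
    (he0 : 0 ≤ p.e0) (hcd : 8 * (p.c + p.d) ≤ 10) (hpe : 0 ≤ p.e) (hCD : 0 ≤ CD)
    (hCD2 : 16 * 10 ^ 4 * (2 * CD + 40 * p.e) ≤ p.CD)
    (ho : o = 1 ∨ o = -1) (he : Function.Injective e) (hm : ∀ i, e i ∈ lbs L)
    (hg : ∑ x1 ∈ iv K (cx K x).1, (GT u x1 K (cx K x).2.1).trace ≤ 2 ^ K * s)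
    (hcap : ZCap ι { p with CD := CD } o K x s r U u L e t0 A b C)
    (hfam : ZFam ι { p with CD := CD } o K x s r U u L e t0 A b C)
    (hrow : RowsZ o K x L e t0 b C (2 ^ K * (2 * p.e * lam1 p s r))) :
    ZCrude ι p o K x s r U u L e t0 A b C := by
  intro j j'
  have hl1 : 0 ≤ lam1 p s r := (H401.lam1_pos ht hs hr).le
  have h := crude_tile (p := { p with CD := CD }) ht hs hr ho he hm hg hcap hfam
    (by positivity) hrow j j'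
  refine h.trans (mul_le_mul_of_nonneg_right ?_ (sq_nonneg _))
  show 16 * 10 ^ 4 * (4 ^ L * (CD * (lsz p * s * 8 ^ K) + CD * (lsz p * s * 8 ^ K)) +
      10 * (2 ^ K * (2 * p.e * lam1 p s r)) * (4 ^ (K + L) * (2 * (p.lam s r)⁻¹ * s))) ≤
    4 ^ L * (p.CD * ((p.t / r) ^ (-(10 : ℝ)) * s * 8 ^ K))
  set T : ℝ := (p.t / r) ^ (-(10 : ℝ)) with hT
  have T0 : 0 ≤ T := Real.rpow_nonneg (div_nonneg ht.le (by linarith)) _
  have a1 := lsz_le ht ht1 hr hcd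
  have a2 := lam1_div ht ht1 hs hr he0
  have e8 : (8 : ℝ) ^ K = 2 ^ K * 4 ^ K := by rw [← mul_pow]; norm_num
  have e1 : 16 * 10 ^ 4 * (4 ^ L * (CD * (lsz p * s * 8 ^ K) + CD * (lsz p * s * 8 ^ K)) +
      10 * (2 ^ K * (2 * p.e * lam1 p s r)) * (4 ^ (K + L) * (2 * (p.lam s r)⁻¹ * s))) =
    (16 * 10 ^ 4) * (4 ^ L * s * 8 ^ K) * (2 * CD * lsz p +
      40 * p.e * (lam1 p s r * (p.lam s r)⁻¹)) := by
    rw [e8, pow_add]
    ring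
  rw [e1]
  have e2 : 2 * CD * lsz p + 40 * p.e * (lam1 p s r * (p.lam s r)⁻¹) ≤
      (2 * CD + 40 * p.e) * T := by
    have b1 := mul_le_mul_of_nonneg_left a1 (mul_nonneg zero_le_two hCD)
    have b2 := mul_le_mul_of_nonneg_left a2 (by positivity : (0 : ℝ) ≤ 40 * p.e)
    rw [add_mul]
    exact add_le_add b1 b2
  have P0 : (0 : ℝ) ≤ 16 * 10 ^ 4 * (4 ^ L * s * 8 ^ K) := by positivity
  refine (mul_le_mul_of_nonneg_left e2 P0).trans ?_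
  have P1 : (0 : ℝ) ≤ 4 ^ L * s * 8 ^ K * T := by positivity
  have e3 := mul_le_mul_of_nonneg_right hCD2 P1
  refine le_trans (le_of_eq ?_) (e3.trans (le_of_eq ?_))
  · ring
  · ring

/-! ### The maker -/

/-- **Maker of the rows** -/
def RowMk : Prop :=
  PartQ fun ι _ _ p _n ez _F1 F2 F3 o K x s r U _g u v _Q1 _Q2 Q3 _B => HUV ι p K x s r U u v →
    0 < ez → ∀ (L : ℕ) (e : ι → ℤ), Function.Injective e → (∀ i, e i ∈ lbs L) →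
    ∀ t0 ∈ rt (cx K x), RowsZ o K x L e t0 (cb p s r U K u F3 Q3)
      (fun x0 k z x1 => (√ez)⁻¹ • mC p U K v F2 x0 k z x1) (2 ^ K * (2 * p.e * lam1 p s r))

/-- **The leaf of the crude pair.** -/
theorem leafCr_of (H1 : MkT ZCap) (H2 : MkT ZFam) (H3 : RowMk) : LeafCr := by
  have H := MkT.and monoCap monoFam H1 H2
  unfold H331.MkT H401.PartQ at H
  unfold RowMk H401.PartQ at H3
  have H4 := PartY.add H H3 (Φ := fun ι _ _ p n ez F1 F2 F3 o K x s r U g u v _B =>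
    ∀ Q1 Q2 Q3 : ℕ → Pt → Prop, BSl n p.e p.cP F1 Q1 → BSl n ez p.cP F2 Q2 →
      BSl n p.e p.cP F3 Q3 → HUV ι p K x s r U u v → 0 < ez →
    ∀ (L : ℕ) (e : ι → ℤ), Function.Injective e → (∀ i, e i ∈ lbs L) → ∀ t0 ∈ rt (cx K x),
      (ZP.and ZCap ZFam) ι p o K x s r U u L e t0 (cA p s r U K g F1 Q1) (cb p s r U K u F3 Q3)
        (fun x0 k z x1 => (√ez)⁻¹ • mC p U K v F2 x0 k z x1) ∧
      RowsZ o K x L e t0 (cb p s r U K u F3 Q3)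
      (fun x0 k z x1 => (√ez)⁻¹ • mC p U K v F2 x0 k z x1) (2 ^ K * (2 * p.e * lam1 p s r))) ?_
  · unfold H331.LeafCr H331.MkTH H401.PartQ
    intro a ha ha1
    obtain ⟨es, hes, H⟩ := H4 a ha ha1
    refine ⟨es, hes, fun e0 he0 he0' => ?_⟩
    obtain ⟨k8s, hk8s, H⟩ := H e0 he0 he0'
    refine ⟨k8s, hk8s, fun k8 hk8 hk8' => ?_⟩
    obtain ⟨k3s, hk3s, H⟩ := H k8 hk8 hk8'
    refine ⟨k3s, hk3s, fun k3 hk3 hk3' => ?_⟩
    obtain ⟨gam, c1, d0, del, hgam, hc1, hd0, hdel, H⟩ := H k3 hk3 hk3'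
    refine ⟨gam, min c1 (1 / 2), min d0 (1 / 2), del, hgam, lt_min hc1 (by norm_num),
      lt_min hd0 (by norm_num), hdel, fun c hc hcc d hd hdd Kt e cP L hK he hcP hL => ?_⟩
    obtain ⟨CD, hCD, C, hC, H⟩ := H c hc (hcc.trans (min_le_left _ _)) d hd
      (hdd.trans (min_le_left _ _)) Kt e cP L hK he hcP hL
    refine ⟨16 * 10 ^ 4 * (2 * CD + 40 * e), by nlinarith, C, hC, ?_⟩
    intro t ht ht1 n ez F1 F2 F3 h1 h3 h2 o ho K hKn x ι _ _ s r U g u v hs hr hcls Q1 Q2 Q3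
      q1 q2 q3 hP hez L' e' he' hm' t0 ht0
    obtain ⟨⟨k1, k2⟩, k3⟩ := H t ht ht1 n ez F1 F2 F3 h1 h3 h2 o ho K hKn x ι s r U g u v hs hr
      hcls Q1 Q2 Q3 q1 q2 q3 hP hez L' e' he' hm' t0 ht0
    have hc2 : c ≤ 1 / 2 := hcc.trans (min_le_right _ _)
    have hd2 : d ≤ 1 / 2 := hdd.trans (min_le_right _ _)
    refine zcrude_of (CD := CD) ht ht1 hs hr he0.le ?_ ?_ (by linarith) le_rfl ho he' hm'
      (H676.mass_GT hcls.toCls) k1 k2 k3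
    · show 8 * (c + d) ≤ 10
      linarith
    · show 0 ≤ e
      linarith
  · intro ι _ _ p CD1 CD2 n ez F1 F2 F3 o K x s r U g u v B1 B2 B ht hs hr ho _ h1 _ h2 _ _ k1 k2 _
      Q1 Q2 Q3 q1 q2 q3 hP hez L e he hm t0 ht0
    exact ⟨(monoCap.and monoFam) ι p CD1 o K x s r U u L e t0 _ _ _ ht hs hr h1
        (k1 Q1 Q2 Q3 q1 q2 q3 hez L e he hm t0 ht0),
      k2 Q1 Q2 Q3 q1 q2 q3 hP hez L e he hm t0 ht0⟩

end

end Vale.Agent.P141.H822.ZCr
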