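import Vale.Agent.P141.H822.LabLP
import Vale.Agent.P141.H433.Tree

/-!
# The quadratic bound of `LP` at small levels for the light multiplier, summed over `x₀`
-/

set_option linter.unusedSectionVars false

namespace Vale.Agent.P141.H822

open Finset Matrix Vale.Agent.P075 Vale.Agent.P141.PL Vale.Agent.P141.PL.H804
open Vale.Agent.P141.H958 Vale.Agent.P141.H103 Vale.Agent.P141.H609 Vale.Agent.P141.H433
open Vale.Agent.P141.H338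
open Vale.Agent.P141.PL.H588 (Xg hd Pl)

noncomputable section

section light

variable {κ : Type*} [Fintype κ] [DecidableEq κ] {L N : ℕ} {R : Pt} {c : ℕ → ℤ}
  {B C : ℕ → ℤ → ℤ → ℤ → ℝ} {cB cC : ℝ} {s : ℕ → Finset Pt} {el : κ → ℤ}
  {QB QC : ℕ → ℤ → ℤ → Prop} {l : ℝ} {G K : ℤ → ℕ → ℤ → Matrix κ κ ℝ}

/-- The light multiplier `√l K⁻¹` as a label multiplier. -/
def VL (l : ℝ) (K : ℤ → ℕ → ℤ → Matrix κ κ ℝ) : ℕ → ℤ → ℤ → Matrix κ κ ℝ :=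
  fun k x n => √l • (K x k n)⁻¹

theorem VL_ct (h : ∀ x, H420.Tr l N (G x) (K x)) (k : ℕ) (x n : ℤ) : Ct (VL l K k x n) :=
  light_ct (h x).l_pos ((h x).psG k n) ((h x).pdK k n) ((h x).sq k n)

theorem VL_mass (h : ∀ x, H420.Tr l N (G x) (K x)) (x T : ℤ) :
    ∑ k ∈ range N, (2 : ℝ) ^ (k + 1) * ∑ j ∈ iv (N - (k + 1)) T, vk (VL l K) k x j
      ≤ 2 ^ N * (2 * l⁻¹ * (G x N T).trace) := hG_light (h x) T

/-- **(LP2) for the light multiplier**, one `x₀`. -/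
theorem lo_LP_light (he : Function.Injective el) (hm : ∀ i, el i ∈ lbs L) (hc : Pl c)
    (hB : 0 < cB) (hC : 0 < cC) (hs : ∀ k ∈ Icc 1 N, s k ⊆ bx3 N R k (c k))
    (capB : ∀ k ∈ Icc 1 N, ∀ m ∈ s k, CapR L k m.2.1 m.2.2 cB (B k))
    (capC : ∀ k ∈ Icc 1 N, ∀ m ∈ s k, CapR L k m.1 m.2.2 cC (C k))
    (h : ∀ x, H420.Tr l N (G x) (K x)) (B0 : B 0 = 0) (C0 : C 0 = 0)
    (pB : ∀ l ∈ lbs L, H736.Path N R.2.1 R.2.2 QB (fun k => B k l))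
    (pC : ∀ l ∈ lbs L, H736.Path N R.1 R.2.2 QC (fun k => C k l)) {DB DC : ℝ}
    (oB : ∑ l ∈ lbs L, pwr N R.2.1 R.2.2 QB (fun k => B k l) ≤ DB)
    (oC : ∑ l ∈ lbs L, pwr N R.1 R.2.2 QC (fun k => C k l) ≤ DC) {β g₀ : ℝ}
    (gB : ∀ k < N, ∀ n ∈ iv (N - k) R.2.1, ∀ y ∈ iv N R.2.2,
      ∑ x ∈ iv k n, ∑ l ∈ lbs L, B (k + 1) l x y ^ 2 ≤ 2 ^ k * β ^ 2)
    (gC : ∀ k < N, ∀ n ∈ iv (N - k) R.1, ∀ y ∈ iv N R.2.2,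
      ∑ x ∈ iv k n, ∑ l ∈ lbs L, C (k + 1) l x y ^ 2 ≤ 2 ^ k * β ^ 2)
    (hg : ∀ x ∈ iv N R.2.2, (G x N R.2.1).trace ≤ g₀) (b e : ℕ) :
    LP (N + L) (shs L s) cB cC (shF L fun k => encR L (B k)) (shF L fun k => encR L (C k))
        (SV L el (VL l K)) b e ≤
      (16 * 10 ^ 4 * (4 ^ L * (DB + DC) + 4 ^ (N + L) * β ^ 2 * (2 * l⁻¹ * g₀))) *
        max (cB / 2 ^ (b - 1)) (cC / 2 ^ (e - 1)) ^ 2 :=
  lo_LP_lab he hm hc hB hC hs capB capC (VL_ct h) B0 C0 pB pC oB oC gB gC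
    (fun x hx => (VL_mass h x R.2.1).trans (mul_le_mul_of_nonneg_left
      (mul_le_mul_of_nonneg_left (hg x hx) (mul_nonneg (by norm_num)
        (inv_nonneg.2 (h x).l_pos.le))) (by positivity))) b e

end light

section fam

variable {κ : Type*} [Fintype κ] [DecidableEq κ] {L N : ℕ} {R : Pt} {X : Finset ℤ}
  {c : ℤ → ℕ → ℤ} {B C : ℤ → ℕ → ℤ → ℤ → ℤ → ℝ} {cB cC : ℝ} {s : ℤ → ℕ → Finset Pt}
  {el : κ → ℤ} {QB QC : ℤ → ℕ → ℤ → ℤ → Prop} {l : ℝ} {G K : ℤ → ℕ → ℤ → Matrix κ κ ℝ}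

/-- **(LP2) for the light multiplier**, summed over `x₀`: the hypothesis `hκ` of `H609.tzX`. -/
theorem lo_LP_light_fam (he : Function.Injective el) (hm : ∀ i, el i ∈ lbs L)
    (hc : ∀ i ∈ X, Pl (c i)) (hB : 0 < cB) (hC : 0 < cC)
    (hs : ∀ i ∈ X, ∀ k ∈ Icc 1 N, s i k ⊆ bx3 N R k (c i k))
    (capB : ∀ i ∈ X, ∀ k ∈ Icc 1 N, ∀ m ∈ s i k, CapR L k m.2.1 m.2.2 cB (B i k))
    (capC : ∀ i ∈ X, ∀ k ∈ Icc 1 N, ∀ m ∈ s i k, CapR L k m.1 m.2.2 cC (C i k))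
    (h : ∀ x, H420.Tr l N (G x) (K x)) (B0 : ∀ i ∈ X, B i 0 = 0) (C0 : ∀ i ∈ X, C i 0 = 0)
    (pB : ∀ i ∈ X, ∀ l ∈ lbs L, H736.Path N R.2.1 R.2.2 (QB i) (fun k => B i k l))
    (pC : ∀ i ∈ X, ∀ l ∈ lbs L, H736.Path N R.1 R.2.2 (QC i) (fun k => C i k l)) {DB DC : ℝ}
    (oB : ∑ i ∈ X, ∑ l ∈ lbs L, pwr N R.2.1 R.2.2 (QB i) (fun k => B i k l) ≤ DB)
    (oC : ∑ i ∈ X, ∑ l ∈ lbs L, pwr N R.1 R.2.2 (QC i) (fun k => C i k l) ≤ DC) {β g₀ : ℝ}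
    (gB : ∀ i ∈ X, ∀ k < N, ∀ n ∈ iv (N - k) R.2.1, ∀ y ∈ iv N R.2.2,
      ∑ x ∈ iv k n, ∑ l ∈ lbs L, B i (k + 1) l x y ^ 2 ≤ 2 ^ k * β ^ 2)
    (gC : ∀ i ∈ X, ∀ k < N, ∀ n ∈ iv (N - k) R.1, ∀ y ∈ iv N R.2.2,
      ∑ x ∈ iv k n, ∑ l ∈ lbs L, C i (k + 1) l x y ^ 2 ≤ 2 ^ k * β ^ 2)
    (hg : ∀ x ∈ iv N R.2.2, (G x N R.2.1).trace ≤ g₀) (b e : ℕ) :
    ∑ i ∈ X, LP (N + L) (shs L (s i)) cB cC (shF L fun k => encR L (B i k))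
        (shF L fun k => encR L (C i k)) (SV L el (VL l K)) b e ≤
      (16 * 10 ^ 4 * (4 ^ L * (DB + DC) + X.card * (4 ^ (N + L) * β ^ 2 * (2 * l⁻¹ * g₀)))) *
        max (cB / 2 ^ (b - 1)) (cC / 2 ^ (e - 1)) ^ 2 := by
  have h1 : ∀ i ∈ X, LP (N + L) (shs L (s i)) cB cC (shF L fun k => encR L (B i k))
        (shF L fun k => encR L (C i k)) (SV L el (VL l K)) b e ≤
      (16 * 10 ^ 4 * (4 ^ L * ((∑ l ∈ lbs L, pwr N R.2.1 R.2.2 (QB i) (fun k => B i k l)) +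
        ∑ l ∈ lbs L, pwr N R.1 R.2.2 (QC i) (fun k => C i k l)) +
          4 ^ (N + L) * β ^ 2 * (2 * l⁻¹ * g₀))) *
        max (cB / 2 ^ (b - 1)) (cC / 2 ^ (e - 1)) ^ 2 := fun i hi =>
    lo_LP_light he hm (hc i hi) hB hC (hs i hi) (capB i hi) (capC i hi) h (B0 i hi) (C0 i hi)
      (pB i hi) (pC i hi) le_rfl le_rfl (gB i hi) (gC i hi) hg b e
  refine (sum_le_sum h1).trans ?_
  rw [← sum_mul, ← mul_sum, sum_add_distrib, ← mul_sum, sum_add_distrib, sum_const,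
    nsmul_eq_mul]
  have hM : (0 : ℝ) ≤ max (cB / 2 ^ (b - 1)) (cC / 2 ^ (e - 1)) ^ 2 := sq_nonneg _
  refine mul_le_mul_of_nonneg_right ?_ hM
  refine mul_le_mul_of_nonneg_left ?_ (by norm_num)
  refine add_le_add ?_ le_rfl
  exact mul_le_mul_of_nonneg_left (add_le_add oB oC) (by positivity)

end fam

end

end Vale.Agent.P141.H822
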