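import Vale.Agent.P141.H822.ZCr0
import Vale.Agent.P141.H213.RowX
import Vale.Agent.P141.H80.CutCol
import Vale.Agent.P141.H579.MkCap
import Vale.Agent.P141.H64.ZFam

/-!
# P141, line (A): the leaf of the crude pair of the gap part

* `lowF_eq`, `row_cb` : rows of the cut family `cb` are at most the rows of `mb`;
* `tie2` : the rows at scale `k + 1`, two halves of `H213.rowX_tie`;
* `rowMk : RowMk`, `leafCr : LeafCr`.
-/

set_option linter.unusedSectionVars false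

namespace Vale.Agent.P141.H822.ZCr

open Finset Matrix Vale.Agent.P075 Vale.Agent.P141.PL Vale.Agent.P141.H958
open Vale.Agent.P141.H338
open Vale.Agent.P141.PL.H315 (Tri)
open Vale.Agent.P141.H736 (Path)
open Vale.Agent.P141.H511 (BL CL)
open Vale.Agent.P141.H677 (KT rt)
open Vale.Agent.P141.H677.Sk (lam1)
open Vale.Agent.P141.H48 (US ES BSl sst)
open Vale.Agent.P141.H401 (PartY PartQ cA cb mC mb b1 qB)
open Vale.Agent.P141.H331 (HUV LeafCr)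

noncomputable section

open scoped Classical

section gen

variable {κ : Type*} [Fintype κ] [DecidableEq κ]

/-- the spectral cut as a cut path -/
theorem lowF_eq (Q : ℕ → ℤ → ℤ → Prop) (c : ℝ) (F : ℕ → ℤ → ℤ → κ → ℝ) :
    H205.lowF Q c F = H80.lowG Q (fun k n m => H205.prL k (F (k + 1)) c n m) F := by
  funext k
  induction k with
  | zero => rfl
  | succ k ih =>
    funext x y
    show (if Q k (ix k x) (ix k y) then H205.cutF c k (F (k + 1)) x y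
      else H205.lowF Q c F k x y) = _
    rw [ih]
    rfl

/-- from combinations of the labels to squares -/
theorem rows_sq {X : Finset ℤ} {f g : ℤ → κ → ℝ}
    (h : ∀ w : κ → ℝ, ∑ y ∈ X, (w ⬝ᵥ f y) ^ 2 ≤ ∑ y ∈ X, (w ⬝ᵥ g y) ^ 2) :
    ∑ y ∈ X, f y ⬝ᵥ f y ≤ ∑ y ∈ X, g y ⬝ᵥ g y := by
  have e : ∀ g : ℤ → κ → ℝ, ∑ y ∈ X, g y ⬝ᵥ g y =
      ∑ i : κ, ∑ y ∈ X, ((Pi.single i 1 : κ → ℝ) ⬝ᵥ g y) ^ 2 := by
    intro g
    rw [sum_comm]
    refine sum_congr rfl fun y _ => ?_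
    rw [dotProduct]
    refine sum_congr rfl fun i _ => ?_
    rw [single_dotProduct, one_mul, sq]
  rw [e f, e g]
  exact sum_le_sum fun i _ => h _

variable {N : ℕ} {T0 S T : ℤ}

/-- **Rows at scale `k + 1`**: two halves. -/
theorem tie2 {f : ℤ → ℕ → ℤ → ℤ → κ → ℝ} {b : ℝ} (hb : 0 ≤ b)
    (h : ∀ k < N, ∀ q ∈ iv (N - k) T0, ∀ m ∈ iv (N - k) T, ∀ p ∈ iv N S,
      ∑ x0 ∈ iv k q, ∑ y ∈ iv k m, f x0 (k + 1) p y ⬝ᵥ f x0 (k + 1) p y ≤ 4 ^ k * b)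
    {k : ℕ} (hk : k < N) {p : ℤ} (hp : p ∈ iv N S) (τ : ℤ → ℤ) :
    ∑ x0 ∈ iv N T0, (if τ (ix k x0) ∈ iv (N - (k + 1)) T then
      ∑ y ∈ iv (k + 1) (τ (ix k x0)), f x0 (k + 1) p y ⬝ᵥ f x0 (k + 1) p y else 0) ≤
      2 ^ (k + 1) * (2 ^ N * b) := by
  have a0 := H213.rowX_tie hb h hk hp (fun q => 2 * τ q)
  have a1 := H213.rowX_tie hb h hk hp (fun q => 2 * τ q + 1)
  have hn : ∀ (A : Finset ℤ) (x0 : ℤ), 0 ≤ ∑ y ∈ A, f x0 (k + 1) p y ⬝ᵥ f x0 (k + 1) p y :=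
    fun A x0 => sum_nonneg fun y _ => H213.dp_nonneg _
  have h1 : ∀ x0 ∈ iv N T0, (if τ (ix k x0) ∈ iv (N - (k + 1)) T then
      ∑ y ∈ iv (k + 1) (τ (ix k x0)), f x0 (k + 1) p y ⬝ᵥ f x0 (k + 1) p y else 0) ≤
      (if 2 * τ (ix k x0) ∈ iv (N - k) T then
        ∑ y ∈ iv k (2 * τ (ix k x0)), f x0 (k + 1) p y ⬝ᵥ f x0 (k + 1) p y else 0) +
      (if 2 * τ (ix k x0) + 1 ∈ iv (N - k) T then
        ∑ y ∈ iv k (2 * τ (ix k x0) + 1), f x0 (k + 1) p y ⬝ᵥ f x0 (k + 1) p y else 0) := by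
    intro x0 _
    by_cases hm : τ (ix k x0) ∈ iv (N - (k + 1)) T
    · rw [if_pos hm, if_pos (H213.half_mem hk hm (Or.inl rfl)),
        if_pos (H213.half_mem hk hm (Or.inr rfl)), H433.sum_iv_halves]
    · rw [if_neg hm]
      refine add_nonneg ?_ ?_
      · split_ifs
        · exact hn _ _
        · exact le_rfl
      · split_ifs
        · exact hn _ _
        · exact le_rfl
  refine (sum_le_sum h1).trans ?_
  rw [sum_add_distrib]
  refine (add_le_add a0 a1).trans (le_of_eq ?_)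
  rw [pow_succ]
  ring

end gen

variable {ι : Type} [Fintype ι] [DecidableEq ι]

/-- **Rows of the cut family.** -/
theorem row_cb {p : H401.Num} {s r : ℝ} {U : Tri} {K : ℕ} {u : ℤ → ℤ → ι → ℝ}
    {F3 : ℕ → Pt → ℝ} {Q3 : ℕ → Pt → Prop} {R S x0 : ℤ}
    (ag : ∀ l, Path K R S (fun k n m => qB p U K Q3 k (ix k x0) n m)
      (fun k x y => mb p U K u F3 x0 k x y l)) :
    ∀ k < K, ∀ n ∈ iv (K - k) R, ∀ m ∈ iv (K - k) S, ∀ x ∈ iv k n,
      ∑ y ∈ iv k m, cb p s r U K u F3 Q3 x0 (k + 1) x y ⬝ᵥ cb p s r U K u F3 Q3 x0 (k + 1) x y ≤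
        ∑ y ∈ iv k m, mb p U K u F3 x0 (k + 1) x y ⬝ᵥ mb p U K u F3 x0 (k + 1) x y := by
  intro k hk n hn m hm x hx
  have q0 : ∀ n m, qB p U K Q3 0 (ix 0 x0) n m := fun n m => Or.inl rfl
  refine rows_sq fun w => ?_
  have h1 := H80.lowW_row (K := KT (p.lam s r) u) (c := p.be s r ^ 2 / √(p.lam s r))
    (F := b1 p s r U K u F3 Q3 x0) (N := K) (R := R) (S := S)
    (Q := fun k n m => qB p U K Q3 k (ix k x0) n m)
    (fun l => H205.lowF_path K R S l) q0 w k hk n hn m hm x hx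
  have h2 := H80.lowG_row (Q := fun k n m => qB p U K Q3 k (ix k x0) n m)
    (Pr := fun k n m => H205.prL k (mb p U K u F3 x0 (k + 1)) (p.th s r ^ 2) n m)
    (F := mb p U K u F3 x0) (N := K) (R := R) (S := S)
    (fun _ _ _ => H205.lowP_transpose _ _) (fun _ _ _ => H205.lowP_idem _ _) ag q0 w k hk n hn m
    hm x hx
  rw [← lowF_eq] at h2
  exact h1.trans h2

/-- **Maker of the rows.** -/
theorem rowMk : RowMk := by
  intro a ha ha1
  refine ⟨1, one_pos, fun e0 _ _ => ⟨1, one_pos, fun k8 _ _ => ⟨1, one_pos, fun k3 _ _ =>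
    ⟨1, 1, 1, 1, one_pos, one_pos, one_pos, one_pos,
    fun c hc _ d hd _ Kt e cP L hKt he hcP _ => ⟨1, le_rfl, 0, le_rfl, ?_⟩⟩⟩⟩⟩
  intro t ht ht1 n ez F1 F2 F3 h1 h3 h2 o ho K hKn x ι _ _ s r U g u v hs hr hcls Q1 Q2 Q3 q1 q2 q3
    hP hez Lb em hem hlb t0 _
  set p : H401.Num := ⟨a, e0, k8, k3, c, d, Kt, e, cP, L, 1, t⟩ with hp
  have he0 : 0 ≤ e := by linarith
  have hLm : 1 ≤ p.Lm := H401.Num.Lm_ge (p := p) ht ht1 hd.le
  have hl1 : 0 ≤ lam1 p s r := (H401.lam1_pos (p := p) ht hs hr).le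
  obtain ⟨fU, fP⟩ := hP
  have hb0 : 0 ≤ 2 * e * lam1 p s r := by positivity
  -- rows of `C`
  have rowC : ∀ k < K, ∀ q ∈ iv (K - k) t0, ∀ m ∈ iv (K - k) (cx K x).2.2,
      ∀ y ∈ iv K (cx K x).1, ∑ x0 ∈ iv k q, ∑ z ∈ iv k m,
        ((√ez)⁻¹ • mC p U K v F2 x0 (k + 1) z y) ⬝ᵥ ((√ez)⁻¹ • mC p U K v F2 x0 (k + 1) z y) ≤
        4 ^ k * (2 * e * lam1 p s r) := by
    intro k hk q hq m hm y hy
    have b1 := H213.rowX_base (T0 := t0) (S := (cx K x).1) (T := (cx K x).2.2) q2 hez.le hl1 hKn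
      (u := v) (Λ := p.Lm) (a := U.2.1) fP k hk q hq m hm y hy
    have e1 : ∑ x0 ∈ iv k q, ∑ z ∈ iv k m,
        ((√ez)⁻¹ • mC p U K v F2 x0 (k + 1) z y) ⬝ᵥ ((√ez)⁻¹ • mC p U K v F2 x0 (k + 1) z y) =
        ez⁻¹ * ∑ x0 ∈ iv k q, ∑ z ∈ iv k m,
          mC p U K v F2 x0 (k + 1) z y ⬝ᵥ mC p U K v F2 x0 (k + 1) z y := by
      rw [mul_sum]
      refine sum_congr rfl fun x0 _ => ?_
      rw [mul_sum]
      refine sum_congr rfl fun z _ => ?_
      rw [smul_dotProduct, dotProduct_smul, smul_eq_mul, smul_eq_mul, ← mul_assoc, ← mul_inv,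
        Real.mul_self_sqrt hez.le]
    rw [e1]
    have b2 : ∑ x0 ∈ iv k q, ∑ z ∈ iv k m,
          mC p U K v F2 x0 (k + 1) z y ⬝ᵥ mC p U K v F2 x0 (k + 1) z y ≤
        4 ^ k * (2 * ez * lam1 p s r) := b1
    refine (mul_le_mul_of_nonneg_left b2 (inv_nonneg.2 hez.le)).trans ?_
    have e2 : ez⁻¹ * (4 ^ k * (2 * ez * lam1 p s r)) = 4 ^ k * (2 * 1 * lam1 p s r) := by
      field_simp
    rw [e2]
    refine mul_le_mul_of_nonneg_left (mul_le_mul_of_nonneg_right ?_ hl1) (by positivity)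
    linarith
  -- rows of `b`
  have hfam := H508.famK_bCls (u := u) (v := v) (g := g) (s := s) hLm hcP h3 q3 hKn hcls.toCls t0
  have rowB : ∀ k < K, ∀ q ∈ iv (K - k) t0, ∀ m ∈ iv (K - k) (cx K x).2.1,
      ∀ y ∈ iv K (cx K x).1, ∑ x0 ∈ iv k q, ∑ z ∈ iv k m,
        cb p s r U K u F3 Q3 x0 (k + 1) y z ⬝ᵥ cb p s r U K u F3 Q3 x0 (k + 1) y z ≤
        4 ^ k * (2 * e * lam1 p s r) := by
    intro k hk q hq m hm y hy
    have b1 : ∑ x0 ∈ iv k q, ∑ z ∈ iv k m,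
        mb p U K u F3 x0 (k + 1) y z ⬝ᵥ mb p U K u F3 x0 (k + 1) y z ≤
        4 ^ k * (2 * e * lam1 p s r) :=
      H213.rowX_base (T0 := t0) (S := (cx K x).1) (T := (cx K x).2.1) q3 he0 hl1 hKn
        (u := u) (Λ := p.Lm) (a := U.1) fU k hk q hq m hm y hy
    refine (sum_le_sum fun x0 hx0 => ?_).trans b1
    have hx : x0 ∈ iv K t0 := by
      have h1 : x0 ∈ iv ((K - k) + k) t0 := mem_iv_add.2 (by rw [mem_iv.1 hx0]; exact hq)
      rwa [Nat.sub_add_cancel hk.le] at h1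
    exact row_cb (R := (cx K x).1) (S := (cx K x).2.1) (fun l => hfam.path x0 hx l) k hk (ix k y)
      (mem_iv_sub hk.le hy) m hm y (mem_iv.2 rfl)
  have hrw : (2 : ℝ) ^ K * (2 * p.e * lam1 p s r) = 2 ^ K * (2 * e * lam1 p s r) := rfl
  constructor
  · intro k hk y hy n' hn'
    have h := tie2 (f := fun x0 k y z => (√ez)⁻¹ • mC p U K v F2 x0 k z y) hb0 rowC hk hy
      (fun q => o - 2 - ix 1 q - ix (k + 1) y - n')
    rw [hrw]
    refine le_trans (le_of_eq (sum_congr rfl fun i _ => ?_)) h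
    have e1 : H677.cP o i (k + 1) - ix (k + 1) y - n' =
        o - 2 - ix 1 (ix k i) - ix (k + 1) y - n' := by
      unfold H677.cP
      rw [ix_ix]
    rw [e1]
    refine if_congr Iff.rfl (sum_congr rfl fun z _ => ?_) rfl
    exact ht_cu hem hlb _
  · intro k hk y hy n' hn'
    have h := tie2 (f := cb p s r U K u F3 Q3) hb0 rowB hk hy (fun _ => n')
    rw [hrw]
    refine le_trans (le_of_eq (sum_congr rfl fun i _ => ?_)) h
    rw [if_pos hn']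
    refine sum_congr rfl fun z _ => ?_
    exact ht_cu hem hlb _

/-- **The leaf of the crude pair of the gap part.** -/
theorem leafCr : LeafCr := leafCr_of H579.mkT_ZCap H64.mkT_ZFam rowMk

end

end Vale.Agent.P141.H822.ZCr
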