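import Vale.Agent.P141.H822.LPLight
import Vale.Agent.P141.H677.Fam

/-!
# Line heights of the families at a fixed `x₀`

`ht_path`: a path of vector functions whose lines are bounded on the affected squares has bounded
lines on all squares.  `ht_fb`, `ht_fC`: the families of the class; `ht_cut`: a cut family.
-/

set_option linter.unusedSectionVars false

namespace Vale.Agent.P141.H822

open Finset Matrix Vale.Agent.P141.PL Vale.Agent.P141.H958 Vale.Agent.P141.H338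
open Vale.Agent.P141.H677

noncomputable section

open scoped Classical

section

variable {κ : Type*} [Fintype κ] [DecidableEq κ] {N L : ℕ} {S T : ℤ}

/-- Agreement off the affected squares. -/
def AgV (N : ℕ) (S T : ℤ) (Q : ℕ → ℤ → ℤ → Prop) (f : ℕ → ℤ → ℤ → κ → ℝ) : Prop :=
  ∀ k < N, ∀ n ∈ iv (N - k) S, ∀ m ∈ iv (N - k) T, ¬ Q k n m →
    ∀ p ∈ iv k n, ∀ q ∈ iv k m, f (k + 1) p q = f k p q

theorem mem_iv_sub {N k : ℕ} {S p : ℤ} (hk : k ≤ N) (hp : p ∈ iv N S) : ix k p ∈ iv (N - k) S := by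
  have h : p ∈ iv ((N - k) + k) S := by rwa [Nat.sub_add_cancel hk]
  exact mem_iv_add.1 h

/-- **Lines of a path.** -/
theorem ht_path {Q : ℕ → ℤ → ℤ → Prop} {f : ℕ → ℤ → ℤ → κ → ℝ} {b : ℝ} (hb : 0 ≤ b)
    (ag : AgV N S T Q f) (z : f 0 = 0)
    (h : ∀ k < N, ∀ n ∈ iv (N - k) S, ∀ m ∈ iv (N - k) T, Q k n m → ∀ p ∈ iv k n,
      ∑ q ∈ iv k m, f (k + 1) p q ⬝ᵥ f (k + 1) p q ≤ 2 ^ k * b) :
    ∀ k < N, ∀ m ∈ iv (N - k) T, ∀ p ∈ iv N S,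
      ∑ q ∈ iv k m, f (k + 1) p q ⬝ᵥ f (k + 1) p q ≤ 2 ^ k * b := by
  intro k
  induction k with
  | zero =>
    intro hk m hm p hp
    have hn := mem_iv_sub (k := 0) hk.le hp
    have hpn : p ∈ iv 0 (ix 0 p) := mem_iv.2 rfl
    by_cases hQ : Q 0 (ix 0 p) m
    · exact h 0 hk _ hn m hm hQ p hpn
    · have e : ∀ q ∈ iv 0 m, f (0 + 1) p q ⬝ᵥ f (0 + 1) p q = 0 := fun q hq => by
        rw [ag 0 hk _ hn m hm hQ p hpn q hq, z]
        simp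
      rw [sum_congr rfl e, sum_const_zero]
      positivity
  | succ k ih =>
    intro hk m hm p hp
    have hn := mem_iv_sub (k := k + 1) hk.le hp
    have hpn : p ∈ iv (k + 1) (ix (k + 1) p) := mem_iv.2 rfl
    by_cases hQ : Q (k + 1) (ix (k + 1) p) m
    · exact h (k + 1) hk _ hn m hm hQ p hpn
    · have e : ∀ q ∈ iv (k + 1) m, f (k + 1 + 1) p q ⬝ᵥ f (k + 1 + 1) p q =
          f (k + 1) p q ⬝ᵥ f (k + 1) p q := fun q hq => by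
        rw [ag (k + 1) hk _ hn m hm hQ p hpn q hq]
      rw [sum_congr rfl e, H433.sum_iv_halves]
      have hd : ∀ j, j = 2 * m ∨ j = 2 * m + 1 → j ∈ iv (N - k) T := by
        intro j hj
        have e1 : N - k = (N - (k + 1)) + 1 := by omega
        rw [e1]
        refine mem_iv_add.2 ?_
        have : ix 1 j = m := by
          unfold ix
          rcases hj with hj | hj <;> subst hj <;> omega
        rw [this]
        exact hm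
      have h1 := ih (by omega) (2 * m) (hd _ (Or.inl rfl)) p hp
      have h2 := ih (by omega) (2 * m + 1) (hd _ (Or.inr rfl)) p hp
      rw [pow_succ]
      linarith

/-- **Lines of a cut family.** -/
theorem ht_cut {Q : ℕ → ℤ → ℤ → Prop} {f f' : ℕ → ℤ → ℤ → κ → ℝ} {b : ℝ} (hb : 0 ≤ b)
    (ag : AgV N S T Q f') (z : f' 0 = 0)
    (rows : ∀ k < N, ∀ n ∈ iv (N - k) S, ∀ m ∈ iv (N - k) T, Q k n m → ∀ p ∈ iv k n,
      ∀ w : κ → ℝ, ∑ q ∈ iv k m, (f' (k + 1) p q ⬝ᵥ w) ^ 2 ≤ ∑ q ∈ iv k m, (f (k + 1) p q ⬝ᵥ w) ^ 2)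
    (h : ∀ k < N, ∀ m ∈ iv (N - k) T, ∀ p ∈ iv N S,
      ∑ q ∈ iv k m, f (k + 1) p q ⬝ᵥ f (k + 1) p q ≤ 2 ^ k * b) :
    ∀ k < N, ∀ m ∈ iv (N - k) T, ∀ p ∈ iv N S,
      ∑ q ∈ iv k m, f' (k + 1) p q ⬝ᵥ f' (k + 1) p q ≤ 2 ^ k * b := by
  refine ht_path hb ag z fun k hk n hn m hm hQ p hp => ?_
  have hpN : p ∈ iv N S := by
    have h1 : p ∈ iv ((N - k) + k) S := mem_iv_add.2 (by rw [mem_iv.1 hp]; exact hn)
    rwa [Nat.sub_add_cancel hk.le] at h1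
  refine le_trans ?_ (h k hk m hm p hpN)
  have e : ∀ g : ℤ → κ → ℝ, ∑ q ∈ iv k m, g q ⬝ᵥ g q =
      ∑ i : κ, ∑ q ∈ iv k m, (g q ⬝ᵥ Pi.single i 1) ^ 2 := by
    intro g
    rw [sum_comm]
    refine sum_congr rfl fun q _ => ?_
    rw [dotProduct]
    refine sum_congr rfl fun i _ => ?_
    rw [dotProduct_single, mul_one, sq]
  rw [e fun q => f' (k + 1) p q, e fun q => f (k + 1) p q]
  exact sum_le_sum fun i _ => rows k hk n hn m hm hQ p hp (Pi.single i 1)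

/-- labels -/
theorem ht_cu {el : κ → ℤ} (he : Function.Injective el) (hm : ∀ i, el i ∈ lbs L)
    (f : κ → ℝ) : ∑ l ∈ lbs L, cu el f l ^ 2 = f ⬝ᵥ f := by
  have h := sum_cu_cu he hm f f
  rw [dotProduct, ← h]
  exact sum_congr rfl fun l _ => by rw [sq]

theorem kF_sq_le (Λ : ℝ) (a : ℤ × ℤ → ℝ) (K : ℕ) (F : ℕ → Pt → ℝ) (k : ℕ) (q : Pt) :
    kF Λ a K F k q ^ 2 ≤ F k q ^ 2 := by
  unfold kF
  split_ifs
  · rw [zero_pow two_ne_zero]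
    positivity
  · exact le_rfl

theorem ht_vec {F : ℕ → Pt → ℝ} {u : ℤ → ℤ → κ → ℝ} {e : ℝ}
    (h2 : ∀ k < N, ∀ m z x : ℤ, ∑ y ∈ iv k m, F (k + 1) (z, x, y) ^ 2 ≤ e * 2 ^ k)
    (hu : ∀ x ∈ iv N S, ∀ y ∈ iv N T, u x y ⬝ᵥ u x y ≤ 1) (x0 : ℤ) :
    ∀ k < N, ∀ m ∈ iv (N - k) T, ∀ p ∈ iv N S,
      ∑ q ∈ iv k m, (F (k + 1) (x0, p, q) • u p q) ⬝ᵥ (F (k + 1) (x0, p, q) • u p q) ≤
        2 ^ k * e := by
  intro k hk m hm p hp
  have h1 := h2 k hk m x0 p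
  rw [mul_comm e] at h1
  refine le_trans (sum_le_sum fun q hq => ?_) h1
  have hq' : q ∈ iv N T := by
    have h1 : q ∈ iv ((N - k) + k) T := mem_iv_add.2 (by rw [mem_iv.1 hq]; exact hm)
    rwa [Nat.sub_add_cancel hk.le] at h1
  rw [smul_dotProduct, dotProduct_smul, smul_eq_mul, smul_eq_mul]
  have h3 := hu p hp q hq'
  nlinarith [sq_nonneg (F (k + 1) (x0, p, q))]

/-- **Lines of `b = F₃ u`** (also for killed inputs). -/
theorem ht_fb {n : ℕ} {e cP : ℝ} {F : ℕ → Pt → ℝ} {Q : ℕ → Pt → Prop}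
    (hF : H48.BSl n e cP F Q) (hN : N ≤ n) {u : ℤ → ℤ → κ → ℝ}
    (hu : ∀ x ∈ iv N S, ∀ y ∈ iv N T, u x y ⬝ᵥ u x y ≤ 1) (Λ : ℝ) (a : ℤ × ℤ → ℝ) (x0 : ℤ) :
    ∀ k < N, ∀ m ∈ iv (N - k) T, ∀ p ∈ iv N S,
      ∑ q ∈ iv k m, fb u (kF Λ a N F) x0 (k + 1) p q ⬝ᵥ fb u (kF Λ a N F) x0 (k + 1) p q ≤
        2 ^ k * e :=
  ht_vec (F := kF Λ a N F) (fun k hk m z x => (sum_le_sum fun y _ =>
    kF_sq_le Λ a N F (k + 1) (z, x, y)).trans (hF.l2 k (hk.trans_le hN) m z x)) hu x0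

/-- **Lines of `C = F₂ v`**: rows `x₃`, the sum runs over `x₃` at fixed `x₁`. -/
theorem ht_fC {n : ℕ} {e cP : ℝ} {F : ℕ → Pt → ℝ} {Q : ℕ → Pt → Prop}
    (hF : H48.BSl n e cP F Q) (hN : N ≤ n) {v : ℤ → ℤ → κ → ℝ}
    (hv : ∀ x ∈ iv N S, ∀ z ∈ iv N T, v x z ⬝ᵥ v x z ≤ 1) (Λ : ℝ) (a : ℤ × ℤ → ℝ) (x0 : ℤ) :
    ∀ k < N, ∀ m ∈ iv (N - k) T, ∀ p ∈ iv N S,
      ∑ q ∈ iv k m, fC v (kF Λ a N F) x0 (k + 1) q p ⬝ᵥ fC v (kF Λ a N F) x0 (k + 1) q p ≤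
        2 ^ k * e :=
  ht_vec (F := kF Λ a N F) (u := v) (fun k hk m z x => (sum_le_sum fun y _ =>
    kF_sq_le Λ a N F (k + 1) (z, x, y)).trans (hF.l2 k (hk.trans_le hN) m z x)) hv x0

end

end

end Vale.Agent.P141.H822
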