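import Vale.Agent.P141.H822.ToLP
import Vale.Agent.P141.H433.LoPath

/-!
# The quadratic bound of the pair sum `LP` at small levels
-/

set_option linter.unusedSectionVars false

namespace Vale.Agent.P141.H822

open Finset Matrix Vale.Agent.P075 Vale.Agent.P141.PL Vale.Agent.P141.PL.H804
open Vale.Agent.P141.H958 Vale.Agent.P141.H103 Vale.Agent.P141.H609 Vale.Agent.P141.H433
open Vale.Agent.P141.PL.H588 (Xg hd Pl)

noncomputable section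

variable {L N : ℕ} {R : Pt} {c : ℕ → ℤ} {B C : ℕ → ℤ → ℤ → ℝ} {cB cC : ℝ}
  {s : ℕ → Finset Pt} {S : (k : ℕ) → Pt → Matrix (Ix k) (Ix k) ℝ}
  {U : ℕ → ℤ → ℤ → Matrix (Ix L) (Ix L) ℝ} {QB QC : ℕ → ℤ → ℤ → Prop}

theorem smp_scl (σ : ℝ) (a b : ℕ) (F : ℤ → ℤ → ℝ) (p q : ℤ) :
    H588.smp a b (scl σ F) p q = √((σ ^ 2)⁻¹) • H588.smp a b F p q := by
  ext i j
  simp [H588.smp, scl]

theorem trace_scl (σ : ℝ) (a b : ℕ) (F : ℤ → ℤ → ℝ) (n m : ℤ) :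
    (Xg a b (scl σ F) n m).trace = (σ ^ 2)⁻¹ * (Xg a b F n m).trace := by
  have h := Real.mul_self_sqrt (show (0 : ℝ) ≤ (σ ^ 2)⁻¹ by positivity)
  rw [Xg, Xg, smp_scl, transpose_smul, Matrix.smul_mul, Matrix.mul_smul, smul_smul, smul_smul,
    mul_assoc, h, trace_smul, trace_smul]
  simp only [smul_eq_mul]
  ring

theorem Pl_shift (hc : Pl c) (L : ℕ) : Pl (fun j => c (L + j)) := fun k => by
  have h := hc (L + k)
  exact h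

/-- **The crude lemma in the letters of `LP`.** -/
theorem lo_LP (hc : Pl c) (hB : 0 < cB) (hC : 0 < cC) (hs0 : ∀ k ≤ L, s k = ∅)
    (hs : ∀ k ∈ Icc 1 (L + N), s k ⊆ bx3 (L + N) R k (c k))
    (capB : ∀ k ∈ Icc 1 (L + N), ∀ m ∈ s k, Cap k m.2.1 m.2.2 cB (B k))
    (capC : ∀ k ∈ Icc 1 (L + N), ∀ m ∈ s k, Cap k m.1 m.2.2 cC (C k))
    (hU : ∀ k x n, Ct (U k x n))
    (hSU : ∀ k < N, ∀ m ∈ s (L + (k + 1)), S (L + (k + 1)) m = DU U (k + 1) (k + 1) m.2.1 m.2.2)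
    {DB DC : ℝ} (eB : L2E (L + N) R.2.1 R.2.2 QB B DB) (eC : L2E (L + N) R.1 R.2.2 QC C DC)
    {β G : ℝ}
    (gB : ∀ k < N, ∀ n ∈ iv (N - k) R.2.1, ∀ y ∈ iv N R.2.2,
      (Xg (L + k) L (B (L + (k + 1))) n y).trace ≤ β ^ 2)
    (gC : ∀ k < N, ∀ n ∈ iv (N - k) R.1, ∀ y ∈ iv N R.2.2,
      (Xg (L + k) L (C (L + (k + 1))) n y).trace ≤ β ^ 2)
    (hG : ∀ x ∈ iv N R.2.2, ∑ k ∈ range N, 2 ^ (k + 1) * ∑ j ∈ iv (N - (k + 1)) R.2.1, vd U k x j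
      ≤ 2 ^ N * G) (b e : ℕ) :
    LP (L + N) s cB cC B C S b e ≤ (16 * 10 ^ 4 * (DB + DC + 4 ^ (L + N) * β ^ 2 * G)) *
      max (cB / 2 ^ (b - 1)) (cC / 2 ^ (e - 1)) ^ 2 := by
  set σ := max (cB / 2 ^ (b - 1)) (cC / 2 ^ (e - 1)) with hσ
  have σ0 : 0 < σ := lt_of_lt_of_le (by positivity : 0 < cB / 2 ^ (b - 1)) (le_max_left _ _)
  have h1 := LP_le_GW (c := fun j => c (L + j)) hB hC hs0
    (fun k hk => hs (L + (k + 1)) (mem_Icc.2 ⟨by omega, by omega⟩)) capB capC hSU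
    (le_max_left _ _ : cB / 2 ^ (b - 1) ≤ σ) (le_max_right _ _ : cC / 2 ^ (e - 1) ≤ σ)
  have wz : ∀ {F : ℕ → ℤ → ℤ → ℝ}, F 0 = 0 → wp (σ ^ 2)⁻¹ F 0 = 0 := fun h => wp_zero _ h
  have w0 : (0 : ℝ) ≤ (σ ^ 2)⁻¹ := by positivity
  have h2 := lo_path (L := L) (N := N) (B := β / σ) (Pl_shift hc L) hU
    (F := wp (σ ^ 2)⁻¹ C) (H := wp (σ ^ 2)⁻¹ B) (D := (σ ^ 2)⁻¹ * DC) (D' := (σ ^ 2)⁻¹ * DB)
    ⟨path_wp (σ ^ 2)⁻¹ eC.path, wz eC.zero, by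
      rw [pwr_wp w0]; exact mul_le_mul_of_nonneg_left eC.own w0⟩
    ⟨path_wp (σ ^ 2)⁻¹ eB.path, wz eB.zero, by
      rw [pwr_wp w0]; exact mul_le_mul_of_nonneg_left eB.own w0⟩
    (fun k hk n hn y hy => by
      change (Xg (L + k) L (scl σ (C (L + (k + 1)))) n y).trace ≤ _
      rw [trace_scl, div_pow, div_eq_inv_mul]
      exact mul_le_mul_of_nonneg_left (gC k hk n hn y hy) w0)
    (fun k hk n hn y hy => by
      change (Xg (L + k) L (scl σ (B (L + (k + 1)))) n y).trace ≤ _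
      rw [trace_scl, div_pow, div_eq_inv_mul]
      exact mul_le_mul_of_nonneg_left (gB k hk n hn y hy) w0) hG
  refine h1.trans ?_
  have h3 : ∑ k ∈ range N, GW N R.1 R.2.2 R.2.1 (k + 1) (c (L + (k + 1)))
        (H433.mt U (scl σ (C (L + (k + 1)))) (scl σ (B (L + (k + 1)))) k) ≤
      10 ^ 4 * (((4 : ℝ) ^ L)⁻¹ * ((σ ^ 2)⁻¹ * DC + (σ ^ 2)⁻¹ * DB) + 4 ^ N * (β / σ) ^ 2 * G) := h2
  refine (mul_le_mul_of_nonneg_left (mul_le_mul_of_nonneg_left h3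
    (by positivity : (0 : ℝ) ≤ 4 ^ L)) (by positivity)).trans (le_of_eq ?_)
  rw [pow_add, div_pow]
  field_simp
  ring

end

end Vale.Agent.P141.H822
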