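import Vale.Agent.P141.H609.NodeStep
import Vale.Agent.P141.H433.Lo

/-!
# From the crude lemma to the pair sum `LP`

The pair sum `LP` of `C` and `S B` at two levels, both at most `σ`, is at most `16 σ⁴ 4^L` times
the plane sums of the saturated pair at the common level `σ`, with the block diagonal multiplier
`U` between the two slots.
-/

set_option linter.unusedSectionVars false

namespace Vale.Agent.P141.H822

open Finset Matrix Vale.Agent.P075 Vale.Agent.P141.PL Vale.Agent.P141.PL.H804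
open Vale.Agent.P141.H958 Vale.Agent.P141.H103 Vale.Agent.P141.H609 Vale.Agent.P141.H433
open Vale.Agent.P141.PL.H588 (Xg hd Pl)

noncomputable section

/-- both saturated Gram matrices raised to a common level -/
theorem node_mono {n : Type*} [Fintype n] [DecidableEq n] {r S C B : Matrix n n ℝ}
    (hr : rᵀ = r) {x y σ u : ℝ} (hx : 0 < x) (hy : 0 < y) (hxs : x ≤ σ) (hys : y ≤ σ)
    (hu : 0 ≤ u) :
    x ^ 2 * y ^ 2 * (phi (gramC ((x ^ 2)⁻¹ * u) C) *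
      (r * S * phi (gramC ((y ^ 2)⁻¹ * u) B) * Sᵀ * r)).trace ≤
    σ ^ 2 * σ ^ 2 * (phi (gramC ((σ ^ 2)⁻¹ * u) C) *
      (r * S * phi (gramC ((σ ^ 2)⁻¹ * u) B) * Sᵀ * r)).trace := by
  have hσ : 0 < σ := hx.trans_le hxs
  have conj : ∀ {X : Matrix n n ℝ}, X.PosSemidef → (r * S * X * Sᵀ * r).PosSemidef := by
    intro X hX
    have h := psd_conj hX (r * S)
    convert h using 1
    simp only [transpose_mul, hr, Matrix.mul_assoc]
  have pB : (phi (gramC ((y ^ 2)⁻¹ * u) B)).PosSemidef :=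
    phi_psd (gramC_psd (by positivity) B)
  have pC : (phi (gramC ((σ ^ 2)⁻¹ * u) C)).PosSemidef :=
    phi_psd (gramC_psd (by positivity) C)
  have q1 := trace_mul_le_left (conj (pB.smul (by positivity : (0 : ℝ) ≤ y ^ 2)))
    (satC_mono C hx hxs hu)
  have q2 : ((σ ^ 2 • phi (gramC ((σ ^ 2)⁻¹ * u) C)) *
      (r * S * (y ^ 2 • phi (gramC ((y ^ 2)⁻¹ * u) B)) * Sᵀ * r)).trace ≤
      ((σ ^ 2 • phi (gramC ((σ ^ 2)⁻¹ * u) C)) *
      (r * S * (σ ^ 2 • phi (gramC ((σ ^ 2)⁻¹ * u) B)) * Sᵀ * r)).trace := by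
    refine trace_mul_le_right (pC.smul (by positivity)) ?_
    have := conj (satC_mono B hy hys hu)
    rwa [Matrix.mul_sub, Matrix.sub_mul, Matrix.sub_mul] at this
  have h := q1.trans q2
  simp only [Matrix.smul_mul, Matrix.mul_smul, trace_smul, smul_eq_mul] at h
  linarith

theorem sum_bx3_31 (N : ℕ) (R : Pt) (k : ℕ) (c : ℤ) (g : Pt → ℝ) :
    ∑ m ∈ bx3 N R k c, g m = ∑ m3 ∈ iv (N - k) R.2.2, ∑ m1 ∈ iv (N - k) R.1,
      if c - m3 - m1 ∈ iv (N - k) R.2.1 then g (m1, c - m3 - m1, m3) else 0 := by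
  rw [sum_bx3]
  have h : ∀ m1 : ℤ, (∑ m2 ∈ iv (N - k) R.2.1, ∑ m3 ∈ iv (N - k) R.2.2,
      if m1 + m2 + m3 = c then g (m1, m2, m3) else 0)
      = ∑ m3 ∈ iv (N - k) R.2.2, if c - m3 - m1 ∈ iv (N - k) R.2.1 then
        g (m1, c - m3 - m1, m3) else 0 := by
    intro m1
    rw [sum_comm]
    refine sum_congr rfl fun m3 _ => ?_
    have e := sum_ite_plane (iv (N - k) R.2.1) (m3 + m1) c (fun m2 => g (m1, m2, m3))
    rw [show c - m3 - m1 = c - (m3 + m1) by ring, ← e]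
    refine sum_congr rfl fun m2 _ => if_congr ?_ rfl rfl
    constructor <;> intro h <;> linarith
  simp only [h]
  rw [sum_comm]

section

variable {L N : ℕ} {R : Pt} {c : ℕ → ℤ} {B C : ℕ → ℤ → ℤ → ℝ} {cB cC : ℝ}
  {s : ℕ → Finset Pt} {S : (k : ℕ) → Pt → Matrix (Ix k) (Ix k) ℝ}
  {U : ℕ → ℤ → ℤ → Matrix (Ix L) (Ix L) ℝ}

/-- the function at level `σ` -/
def scl (σ : ℝ) (F : ℤ → ℤ → ℝ) : ℤ → ℤ → ℝ := fun x y => √((σ ^ 2)⁻¹) * F x y

theorem LP_le_level (hB : 0 < cB) (hC : 0 < cC)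
    (capB : ∀ k ∈ Icc 1 N, ∀ m ∈ s k, Cap k m.2.1 m.2.2 cB (B k))
    (capC : ∀ k ∈ Icc 1 N, ∀ m ∈ s k, Cap k m.1 m.2.2 cC (C k)) {b e : ℕ} {σ : ℝ}
    (hb : cB / 2 ^ (b - 1) ≤ σ) (he : cC / 2 ^ (e - 1) ≤ σ) :
    LP N s cB cC B C S b e ≤ 16 * (σ ^ 2 * σ ^ 2) *
      ∑ k ∈ Icc 1 N, ∑ m ∈ s k, 4 ^ k *
        (phi (gramC ((σ ^ 2)⁻¹ * (4 ^ k)⁻¹) (bl k (C k) m.1 m.2.2)) *
          (hd k * S k m * phi (gramC ((σ ^ 2)⁻¹ * (4 ^ k)⁻¹) (bl k (B k) m.2.1 m.2.2)) *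
            (S k m)ᵀ * hd k)).trace := by
  refine (LP_le_phi hB hC capB capC b e).trans ?_
  have eB : lv cB b = ((cB / 2 ^ (b - 1)) ^ 2)⁻¹ := by rw [← inv_lv hB b, inv_inv]
  have eC : lv cC e = ((cC / 2 ^ (e - 1)) ^ 2)⁻¹ := by rw [← inv_lv hC e, inv_inv]
  rw [eB, eC]
  set x := cC / 2 ^ (e - 1) with hx
  set y := cB / 2 ^ (b - 1) with hy
  have x0 : 0 < x := by positivity
  have y0 : 0 < y := by positivity
  rw [mul_sum, mul_sum]
  refine sum_le_sum fun k hk => ?_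
  rw [mul_sum, mul_sum]
  refine sum_le_sum fun m hm => ?_
  have h := node_mono (S := S k m) (C := bl k (C k) m.1 m.2.2) (B := bl k (B k) m.2.1 m.2.2)
    (hd_symm k) x0 y0 he hb (show (0 : ℝ) ≤ (4 ^ k)⁻¹ by positivity)
  have h4 : (0 : ℝ) ≤ 16 * 4 ^ k := by positivity
  have h' := mul_le_mul_of_nonneg_left h h4
  linarith

/-- the blocks of the label: no node at the scales `<= L` -/
theorem LP_le_GW (hB : 0 < cB) (hC : 0 < cC)
    (hs0 : ∀ k ≤ L, s k = ∅)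
    (hs : ∀ k < N, s (L + (k + 1)) ⊆ bx3 (L + N) R (L + (k + 1)) (c (k + 1)))
    (capB : ∀ k ∈ Icc 1 (L + N), ∀ m ∈ s k, Cap k m.2.1 m.2.2 cB (B k))
    (capC : ∀ k ∈ Icc 1 (L + N), ∀ m ∈ s k, Cap k m.1 m.2.2 cC (C k))
    (hSU : ∀ k < N, ∀ m ∈ s (L + (k + 1)), S (L + (k + 1)) m = DU U (k + 1) (k + 1) m.2.1 m.2.2)
    {b e : ℕ} {σ : ℝ} (hb : cB / 2 ^ (b - 1) ≤ σ) (he : cC / 2 ^ (e - 1) ≤ σ) :
    LP (L + N) s cB cC B C S b e ≤ 16 * (σ ^ 2 * σ ^ 2) * (4 ^ L *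
      ∑ k ∈ range N, GW N R.1 R.2.2 R.2.1 (k + 1) (c (k + 1))
        (H433.mt U (scl σ (C (L + (k + 1)))) (scl σ (B (L + (k + 1)))) k)) := by
  refine (LP_le_level hB hC capB capC hb he).trans ?_
  refine mul_le_mul_of_nonneg_left ?_ (by positivity)
  -- the sum over the scales
  have hsum : ∀ f : ℕ → ℝ, (∀ k ≤ L, f k = 0) →
      ∑ k ∈ Icc 1 (L + N), f k = ∑ k ∈ range N, f (L + (k + 1)) := by
    intro f hf
    have h1 : ∑ k ∈ Icc 1 (L + N), f k = ∑ k ∈ Ico 1 (L + N + 1), f k := by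
      congr 1
    have h2 : ∑ k ∈ Ico 1 (L + N + 1), f k = ∑ k ∈ Ico 0 (L + N + 1), f k := by
      rw [← sum_Ico_consecutive f (show 0 ≤ 1 by omega) (show 1 ≤ L + N + 1 by omega)]
      simp [hf 0 (Nat.zero_le L)]
    have h3 : ∑ k ∈ Ico 0 (L + N + 1), f k = ∑ k ∈ Ico (L + 1) (L + N + 1), f k := by
      rw [← sum_Ico_consecutive f (Nat.zero_le (L + 1)) (show L + 1 ≤ L + N + 1 by omega)]
      have : ∑ k ∈ Ico 0 (L + 1), f k = 0 := sum_eq_zero fun k hk => hf k (by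
        rw [mem_Ico] at hk; omega)
      rw [this, zero_add]
    rw [h1, h2, h3, sum_Ico_eq_sum_range, show L + N + 1 - (L + 1) = N by omega]
    exact sum_congr rfl fun k _ => by rw [show L + 1 + k = L + (k + 1) by ring]
  rw [hsum _ (fun k hk => by rw [hs0 k hk, sum_empty]), mul_sum]
  refine sum_le_sum fun k hk => ?_
  have hkN : k < N := mem_range.1 hk
  set K := L + (k + 1) with hK
  have hpow : (4 : ℝ) ^ L * 4 ^ (k + 1) = 4 ^ K := by rw [← pow_add]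
  have hX : ∀ (F : ℤ → ℤ → ℝ) (n m : ℤ), Xg K K (scl σ F) n m
      = gramC ((σ ^ 2)⁻¹ * (4 ^ K)⁻¹) (bl K F n m) := fun F n m =>
    Xg_gramC K (by positivity) F n m
  -- the term of one node
  have hterm : ∀ m : Pt, 0 ≤ (phi (gramC ((σ ^ 2)⁻¹ * (4 ^ K)⁻¹) (bl K (C K) m.1 m.2.2)) *
      (hd K * DU U (k + 1) (k + 1) m.2.1 m.2.2 *
        phi (gramC ((σ ^ 2)⁻¹ * (4 ^ K)⁻¹) (bl K (B K) m.2.1 m.2.2)) *
        (DU U (k + 1) (k + 1) m.2.1 m.2.2)ᵀ * hd K)).trace := by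
    intro m
    have p1 := phi_psd (gramC_psd (show (0 : ℝ) ≤ (σ ^ 2)⁻¹ * (4 ^ K)⁻¹ by positivity)
      (bl K (C K) m.1 m.2.2))
    have p2 := phi_psd (gramC_psd (show (0 : ℝ) ≤ (σ ^ 2)⁻¹ * (4 ^ K)⁻¹ by positivity)
      (bl K (B K) m.2.1 m.2.2))
    refine trace_mul_nonneg p1 ?_
    have h := psd_conj p2 (hd K * DU U (k + 1) (k + 1) m.2.1 m.2.2)
    convert h using 1
    rw [transpose_mul, hd_symm]
    simp only [Matrix.mul_assoc]
  have h1 : ∑ m ∈ s K, 4 ^ K * (phi (gramC ((σ ^ 2)⁻¹ * (4 ^ K)⁻¹) (bl K (C K) m.1 m.2.2)) *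
        (hd K * S K m * phi (gramC ((σ ^ 2)⁻¹ * (4 ^ K)⁻¹) (bl K (B K) m.2.1 m.2.2)) *
          (S K m)ᵀ * hd K)).trace
      ≤ ∑ m ∈ bx3 (L + N) R K (c (k + 1)), 4 ^ K *
        (phi (gramC ((σ ^ 2)⁻¹ * (4 ^ K)⁻¹) (bl K (C K) m.1 m.2.2)) *
      (hd K * DU U (k + 1) (k + 1) m.2.1 m.2.2 *
        phi (gramC ((σ ^ 2)⁻¹ * (4 ^ K)⁻¹) (bl K (B K) m.2.1 m.2.2)) *
        (DU U (k + 1) (k + 1) m.2.1 m.2.2)ᵀ * hd K)).trace := by
    refine le_trans (le_of_eq (sum_congr rfl fun m hm => ?_))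
      (sum_le_sum_of_subset_of_nonneg (hs k hkN) fun m _ _ =>
        mul_nonneg (by positivity) (hterm m))
    rw [hSU k hkN m hm]
  refine h1.trans (le_of_eq ?_)
  have hN : L + N - K = N - (k + 1) := by omega
  rw [sum_bx3_31, GW, ← mul_assoc, hpow, mul_sum, hN]
  refine sum_congr rfl fun m3 _ => ?_
  rw [mul_sum]
  refine sum_congr rfl fun m1 _ => ?_
  split_ifs with hif
  · refine congrArg (fun t : ℝ => (4 : ℝ) ^ K * t) ?_
    unfold H433.mt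
    change _ = (phi (Xg K K (scl σ (C K)) m1 m3) * (hd K * (DU U (k + 1) (k + 1)
      (c (k + 1) - m3 - m1) m3 * phi (Xg K K (scl σ (B K)) (c (k + 1) - m3 - m1) m3) *
      (DU U (k + 1) (k + 1) (c (k + 1) - m3 - m1) m3)ᵀ) * hd K)).trace
    rw [hX, hX]
    refine congrArg Matrix.trace ?_
    simp only [Matrix.mul_assoc]
  · rw [mul_zero]

end

end

end Vale.Agent.P141.H822
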